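import Vale.Agent.P298.H119.Comp

open Metric Vale.Agent.P298 Vale.Agent.P298.H119

/-- **Families of functions of two fixed functions, linearly stable families, twisted pencils.**

Let `n ≥ 3`. (1) Let `f, g` be any holomorphic germs on `ℂⁿ` vanishing at `0`, and let `φ_t` be a
holomorphic family of germs on `ℂ²` such that `φ_t(f, g)` has constant Milnor number. Then the
family `φ_t(f, g)` is topologically right-trivial, by a trivialization which fixes the zeros of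
`(f, g)`. For parameters in a connected open set of `ℂᵐ` all the germs `φ_l(f, g)` are
topologically right-equivalent.

(2) A `μ`-constant family which near `t = 0` is of this form, or is a family of functions of
`f, g₁, …, g_k` where `f + ∑ εⱼ gⱼ` is `μ`-constant, or is linearly stable, or is of the form
`u(x, t) (f(x) + κ(x, t) g(x))` with `u ≠ 0` and `∂ₜκ ≠ 0` at `(0, 0)` and satisfies
`|∂ₜF| ≤ C |dₓF|`, is topologically right-trivial. If near every `t₀` of the disk one of these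
holds after a base change `t = t₀ + s ^ m`, then all members of the family are topologically
right-equivalent. -/
theorem Vale.Agent.Results.P298.ComposedFamilies.result {n : ℕ} (hn : 3 ≤ n) :
    (∀ f g : (Fin n → ℂ) → ℂ, Hol f → Hol g → f 0 = 0 → g 0 = 0 →
      (∀ (r : ℝ) (φ : ℂ × ℂ × ℂ → ℂ) (μ : ℕ), 0 < r →
        (∀ t ∈ ball (0 : ℂ) r, AnalyticAt ℂ φ (0, 0, t) ∧ φ (0, 0, t) = 0 ∧
          Milnor (fun x => φ (f x, g x, t)) μ) →
        ∃ δ : ℝ, 0 < δ ∧ δ ≤ r ∧ ∃ Φ, IsTriv δ (fun x t => φ (f x, g x, t)) Φ ∧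
          ∀ p ∈ Φ.source, f p.1 = 0 → g p.1 = 0 → Φ p = p) ∧
      (∀ (m : ℕ) (T : Set (Fin m → ℂ)) (φ : ℂ × ℂ × (Fin m → ℂ) → ℂ) (μ : ℕ),
        IsOpen T → IsPreconnected T →
        (∀ l ∈ T, AnalyticAt ℂ φ (0, 0, l) ∧ φ (0, 0, l) = 0 ∧
          Milnor (fun x => φ (f x, g x, l)) μ) →
        ∀ l ∈ T, ∀ l' ∈ T,
          RightEquiv (fun x => φ (f x, g x, l)) (fun x => φ (f x, g x, l')))) ∧
    (∀ (r : ℝ) (F : (Fin n → ℂ) → ℂ → ℂ) (μ : ℕ), 0 < r → IsHolFamily r F →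
      (∀ t ∈ ball (0 : ℂ) r, Milnor (F · t) μ) →
      (Special F → TopRightTrivial r F) ∧
      ((∀ t₀ ∈ ball (0 : ℂ) r, ∃ m : ℕ, 0 < m ∧ ∃ ρ : ℝ, 0 < ρ ∧
          (∀ s ∈ ball (0 : ℂ) ρ, t₀ + s ^ m ∈ ball (0 : ℂ) r) ∧
          Special fun x s => F x (t₀ + s ^ m)) →
        ∀ t ∈ ball (0 : ℂ) r, ∀ t' ∈ ball (0 : ℂ) r, RightEquiv (F · t) (F · t'))) := by
  refine ⟨fun f g hf hg f0 g0 => ⟨?_, ?_⟩, fun r F μ hr hF hμ => ⟨?_, ?_⟩⟩
  · intro r φ μ hr h
    have h0 := h 0 (mem_ball_self hr)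
    exact isTriv_of_grad hr hf hg f0 g0 h0.1 (fun t ht => (h t ht).2.1)
      (fun t ht => (h t ht).2.2)
      (grad_of_gradCond (gradCond hn) hf hg f0 g0 h0.1 h0.2.1 h0.2.2)
  · intro m T φ μ hT hTc h
    exact rightEquiv_of_connected (gradCond hn) hf hg f0 g0 hT hTc
      (fun l hl => ⟨(h l hl).1, (h l hl).2.1⟩) (fun l hl => (h l hl).2.2)
  · intro h
    obtain ⟨δ, h1, h2, Φ, h3, h4, h5⟩ := isTriv_of_special hn hr hF hμ h
    exact ⟨δ, h1, h2, Φ, h3, h4, h5⟩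
  · intro h
    exact rightEquiv_of_special hn hF hμ h
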