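import Vale.Agent.P298.H119.Germ

open Metric Vale.Agent.P298 Vale.Agent.P298.H119

/-- **Equisingularity from flags.** Let `f_t`, `|t| < r`, be a `μ`-constant family of isolated
surface singularities in `ℂ³`.

(1) Every companion `e_t` together with a second companion `h_t`, or with a simultaneous
parametrization of the curves `f_t = e_t = 0`, gives a topological right-trivialization of the
family which preserves `e_t` on `f_t = 0`, and which preserves `h_t` on the curves or extends the
given trivialization of the curves.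

(2) A family which is controlled near `t = 0` is topologically right-trivial.

(3) If near every `t₀` of the disk the family is controlled after a base change `t = t₀ + s ^ m`,
then all the germs `f_t`, `|t| < r`, are topologically right-equivalent. -/
theorem Vale.Agent.Results.P298.FlagEquisingularity.result {r : ℝ} (hr : 0 < r)
    {F : (Fin 3 → ℂ) → ℂ → ℂ} (hF : IsHolFamily r F) {μ : ℕ}
    (hμ : ∀ t ∈ ball (0 : ℂ) r, Milnor (F · t) μ) :
    (∀ E, Companion r F E →
      (∀ H, Companion2 r F E H → FlagTrivial r F E H) ∧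
      (∀ (k : ℕ) (γ : Fin k → ℂ → ℂ → (Fin 3 → ℂ)) (ρ : ℝ), ParamCurves F E γ ρ →
        ArcTrivial r F E γ)) ∧
    (HasFlag r F → TopRightTrivial r F) ∧
    ((∀ t₀ ∈ ball (0 : ℂ) r, ∃ m : ℕ, 0 < m ∧ ∃ ρ : ℝ, 0 < ρ ∧
        (∀ s ∈ ball (0 : ℂ) ρ, t₀ + s ^ m ∈ ball (0 : ℂ) r) ∧
        HasFlag ρ fun x s => F x (t₀ + s ^ m)) →
      ∀ t ∈ ball (0 : ℂ) r, ∀ t' ∈ ball (0 : ℂ) r, RightEquiv (F · t) (F · t')) := by
  refine ⟨fun E hE => ⟨fun H hH => isTriv_of_companions hr hF hμ hE hH,
    fun k γ ρ hγ => isTriv_of_param hr hF hμ hE hγ⟩, fun h => ?_,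
    fun h => rightEquiv_of_hasFlag hF hμ h⟩
  obtain ⟨δ, h1, h2, Φ, h3, h4, h5⟩ := isTriv_of_hasFlag hr hF hμ h
  exact ⟨δ, h1, h2, Φ, h3, h4, h5⟩
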