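import Vale.Agent.P298.H974.Fixed

/-!
# P298: trivialisation of the whole companion flag, and surfaces through a fixed curve
-/

open Metric Vale.Agent.P298

namespace Vale.Agent.Results.P298.FlagTrivial

/-- (1) A `μ`-constant family `f_t` in `ℂ³` with companions `e_t`, `h_t` as in the companion flag
theorem is topologically right-trivial, by one trivialisation which also trivialises `e_t` on the
surface `f_t = 0` and `h_t` on the curve `f_t = e_t = 0`; in particular the embedded topological
type of the pair (surface, curve) is constant. (2) The same under pointwise conditions on the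
differentials off the axis. (3) The same for the families `f + a_t g` of surfaces which contain a
fixed curve `f = g = 0`, with the fixed companions `g` and `h`. -/
theorem result :
    (∀ {r : ℝ}, 0 < r → ∀ {F E H : (Fin 3 → ℂ) → ℂ → ℂ},
      IsHolFamily r F → IsHolFamily r E → IsHolFamily r H → ∀ {μ a b c : ℕ},
      (∀ t ∈ ball (0 : ℂ) r, Milnor (F · t) μ) →
      (∀ t ∈ ball (0 : ℂ) r, Colength ![(F · t), minor2 0 1 (F · t) (E · t),
        minor2 0 2 (F · t) (E · t), minor2 1 2 (F · t) (E · t)] a) →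
      (∀ t ∈ ball (0 : ℂ) r, Colength ![(F · t), (E · t), jac3 (F · t) (E · t) (H · t)] b) →
      (∀ t ∈ ball (0 : ℂ) r, Colength ![(F · t), (E · t), (H · t)] c) →
      TopRightTrivial r F ∧ FlagTrivial r F E H ∧ ConstantPairType r F E) ∧
    (∀ {r : ℝ}, 0 < r → ∀ {F E H : (Fin 3 → ℂ) → ℂ → ℂ},
      IsHolFamily r F → IsHolFamily r E → IsHolFamily r H → RegularFlag F E H →
      TopRightTrivial r F ∧ FlagTrivial r F E H ∧ ConstantPairType r F E) ∧
    (∀ {r : ℝ}, 0 < r → ∀ {f g h : (Fin 3 → ℂ) → ℂ} {a : (Fin 3 → ℂ) → ℂ → ℂ},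
      Hol f → Hol g → Hol h → f 0 = 0 → g 0 = 0 → h 0 = 0 →
      (∀ t ∈ ball (0 : ℂ) r, AnalyticAt ℂ (fun p : (Fin 3 → ℂ) × ℂ => a p.1 p.2) (0, t)) →
      ∀ {μ m b c : ℕ},
      (∀ t ∈ ball (0 : ℂ) r, Milnor (fun x => f x + a x t * g x) μ) →
      (∀ t ∈ ball (0 : ℂ) r, Colength ![fun x => f x + a x t * g x,
        minor2 0 1 (fun x => f x + a x t * g x) g, minor2 0 2 (fun x => f x + a x t * g x) g,
        minor2 1 2 (fun x => f x + a x t * g x) g] m) →
      Colength ![f, g, jac3 f g h] b → Colength ![f, g, h] c →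
      TopRightTrivial r (fun x t => f x + a x t * g x) ∧
      FlagTrivial r (fun x t => f x + a x t * g x) (fun x _ => g x) (fun x _ => h x) ∧
      ConstantPairType r (fun x t => f x + a x t * g x) (fun x _ => g x)) := by
  refine ⟨?_, ?_, ?_⟩
  · intro r hr F E H hF hE hH μ a b c h₁ h₂ h₃ h₄
    have h := flagTrivial_of_colength hr hF hE hH h₁ h₂ h₃ h₄
    exact ⟨h.topRightTrivial, h, h.constantPairType⟩
  · intro r hr F E H hF hE hH hreg
    have h := flagTrivial_of_regular hr hF hE hH hreg
    exact ⟨h.topRightTrivial, h, h.constantPairType⟩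
  · intro r hr f g h a hf hg hh f0 g0 h0 ha μ m b c h₁ h₂ h₃ h₄
    have h := flagTrivial_fixed_curve hr hf hg hh f0 g0 h0 ha h₁ h₂ h₃ h₄
    exact ⟨h.topRightTrivial, h, h.constantPairType⟩

end Vale.Agent.Results.P298.FlagTrivial
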